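import Vale.Agent.P281.H511.HK.Mrk
import Vale.Agent.P281.H399.HK.Cmp
import Vale.Agent.P281.H83.HK.Spec

/-!
# P281, project T-HK (helper511), block G2: change of the periods
-/

open Set Filter Metric MeasureTheory Vale.Agent.P281 Vale.Agent.P281.H713 Vale.Agent.P272.K
open scoped Topology ContDiff Manifold ComplexConjugate ComplexOrder ENNReal

set_option linter.unusedSectionVars false

noncomputable section

namespace Vale.Agent.P281.H511.HK

open Vale.Agent.P281.H64.TK Vale.Agent.P281.H64.TK.TS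
open Vale.Agent.P281.H511.TS (HTr Hol cl_smul HTr.tr dif_of_hol)
open Vale.Agent.P281.H83.HK
open Vale.Agent.P281.H399.HK (tf_app tf_pm kf_pull pm)

variable {d : ℕ} {E Γ : Type} [TopologicalSpace E] [Group Γ] [MulAction Γ E] [Subsingleton Γ]
  {E' Γ' : Type} [TopologicalSpace E'] [Group Γ'] [MulAction Γ' E'] [Subsingleton Γ']
  {S : Sheets d E Γ} {S' : Sheets d E' Γ'}

theorem tr_hTr {τ : E → E'} (hτ : Hol S S' τ) {i : Fin S.N} {j : Fin S'.N} {z z' : Cm d}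
    (hz : z ∈ ball (0 : Cm d) 3) (hz' : z' ∈ ball (0 : Cm d) 3) {ψ : Cm d → Cm d}
    (h : Tr S S' τ i j z z' ψ) : ∃ θ, HTr S S' τ i j z z' θ ∧
      ∀ v, fderiv ℝ ψ z v = (H64.TK.jac θ z).mulVec v := by
  have h1 : τ (S.σ i z) = S'.σ j z' := by
    rw [h.2.2.self_of_nhds, h.2.1]
  obtain ⟨θ, h2, -⟩ := hτ i j z hz z' hz' h1
  refine ⟨θ, h2, fun v => ?_⟩
  rw [(H864.TS.Tr.unique h h2.tr hz').fderiv_eq, H399.TS.jac_mulVec,
    h2.1.differentiableAt.fderiv_restrictScalars ℝ]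
  rfl

theorem tf_smul (c : ℂ) (m : Matrix (Fin d) (Fin d) ℂ) : tf (c • m) = c • tf m := by
  refine ContinuousLinearMap.ext fun u => ContinuousLinearMap.ext fun v => ?_
  show tf (c • m) u v = c * tf m u v
  rw [tf_app, tf_app, Finset.mul_sum]
  refine Finset.sum_congr rfl fun j _ => ?_
  rw [Finset.mul_sum]
  refine Finset.sum_congr rfl fun k _ => ?_
  rw [Matrix.smul_apply, smul_eq_mul, mul_assoc]

theorem pull_ts {τ : E → E'} (hτ : Hol S S' τ) {s : Fin S.N → Cm d → Matrix (Fin d) (Fin d) ℂ}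
    {s' : Fin S'.N → Cm d → Matrix (Fin d) (Fin d) ℂ} {c : ℂ}
    (h : ∀ i j, ∀ z ∈ ball (0 : Cm d) 3, ∀ z' ∈ ball (0 : Cm d) 3, ∀ θ,
      HTr S S' τ i j z z' θ →
        c • s i z = (H64.TK.jac θ z).transpose * s' j z' * H64.TK.jac θ z) :
    Pull2 S S' τ (fun i z => c • ts s i z) (ts s') := by
  intro i j z hz z' hz' ψ hψ u v
  obtain ⟨θ, h1, h2⟩ := tr_hTr hτ hz hz' hψ
  have h3 : c • ts s i z = tf (pm (H64.TK.jac θ z) (s' j z')) := by
    rw [pm, ← h i j z hz z' hz' θ h1]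
    exact (tf_smul c _).symm
  show (c • ts s i z) u v = tf (s' j z') _ _
  rw [h3, tf_pm, h2, h2]

theorem pull_kw {τ : E → E'} (hτ : Hol S S' τ) {w : Fin S.N → Cm d → Matrix (Fin d) (Fin d) ℂ}
    {w' : Fin S'.N → Cm d → Matrix (Fin d) (Fin d) ℂ}
    (h : ∀ i j, ∀ z ∈ ball (0 : Cm d) 3, ∀ z' ∈ ball (0 : Cm d) 3, ∀ θ,
      HTr S S' τ i j z z' θ →
        w i z = (H64.TK.jac θ z).transpose * w' j z' * (H64.TK.jac θ z).map conj) :
    Pull2 S S' τ (kw w) (kw w') := by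
  intro i j z hz z' hz' ψ hψ u v
  obtain ⟨θ, h1, h2⟩ := tr_hTr hτ hz hz' hψ
  show kf (w i z) u v = kf (w' j z') _ _
  rw [h i j z hz z' hz' θ h1, kf_pull, h2, h2]

theorem exact_zero : Exact S (fun _ _ => (0 : L2 d)) := by
  refine ⟨fun _ _ => 0, ⟨fun i z hz hm => contDiffAt_const, fun i j z hz z' hz' hm ψ hψ v => rfl⟩,
    fun i z hz hm u v => ?_⟩
  have e : fderiv ℝ (fun _ : Cm d => (0 : L1 d)) z = 0 := fderiv_const_apply _
  show fderiv ℝ (fun _ : Cm d => (0 : L1 d)) z u v -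
    fderiv ℝ (fun _ : Cm d => (0 : L1 d)) z v u = 0
  rw [e]
  simp

/-- **the change of the periods** -/
theorem k3_change [T2Space E] [ContinuousConstSMul Γ E] [T2Space E'] [ContinuousConstSMul Γ' E']
    (hF : FormsStmt) (hPM : PullMark2Stmt) (hTM : TwoMark2Stmt) (hd : 2 ≤ d) {τ : E ≃ₜ E'}
    (hτ : Hol S S' τ) {n : ℕ} {M : Mark2 S n} {M' : Mark2 S' n} {B : Matrix (Fin n) (Fin n) ℝ}
    {w : Fin S.N → Cm d → Matrix (Fin d) (Fin d) ℂ}
    {w' : Fin S'.N → Cm d → Matrix (Fin d) (Fin d) ℂ} (hB : Bc M (kw w) = B)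
    (hB' : Bc M' (kw w') = B) {v : Fin n → ℝ} (hw : Kah S w) (hw' : Kah S' w')
    (hv : kc M w = v) (hv' : kc M' w' = v)
    (hm : ∀ i j, ∀ z ∈ ball (0 : Cm d) 3, ∀ z' ∈ ball (0 : Cm d) 3, ∀ θ,
      HTr S S' τ i j z z' θ →
        w i z = (H64.TK.jac θ z).transpose * w' j z' * (H64.TK.jac θ z).map conj)
    {s : Fin S.N → Cm d → Matrix (Fin d) (Fin d) ℂ}
    {s' : Fin S'.N → Cm d → Matrix (Fin d) (Fin d) ℂ} (hs : Hol2 S s) (hs' : Hol2 S' s')
    {c : ℂ} (hc : ∀ i j, ∀ z ∈ ball (0 : Cm d) 3, ∀ z' ∈ ball (0 : Cm d) 3, ∀ θ,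
      HTr S S' τ i j z z' θ →
        c • s i z = (H64.TK.jac θ z).transpose * s' j z' * H64.TK.jac θ z) :
    IsK3Change B v (M.cl (ts s)) (M'.cl (ts s')) c := by
  have hd0 : 0 < d := by omega
  obtain ⟨f1, f2, -⟩ := hF d E Γ S hd0
  obtain ⟨f1', f2', -⟩ := hF d E' Γ' S' hd0
  have hκ := (f2 w hw).1
  have hκ' := (f2' w' hw').1
  have hp := pull_kw hτ hm
  have hz : Exact S (fun i z => kw w i z - kw w i z) := by
    have e : (fun (i : Fin S.N) (z : Cm d) => kw w i z - kw w i z) = fun _ _ => (0 : L2 d) := by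
      funext i z
      refine ContinuousLinearMap.ext fun u => ContinuousLinearMap.ext fun v => ?_
      show kw w i z u v - kw w i z u v = 0
      ring
    rw [e]
    exact exact_zero
  obtain ⟨M₁, h1, h2, h3⟩ := hPM d E Γ S E' Γ' S' τ n M' w w' (kw w) hd (dif_of_hol hτ) hw hw' hκ
    hp hz
  obtain ⟨A, hA1, hA2, hA3⟩ := hTM d E Γ S n M M₁ (kw w) hd hκ (f2 w hw).2
  refine k3_of_mark hA1 hA2 ?_ hκ (f1 s hs) (h3 _ _ hκ hκ' hp)
    (h3 _ _ (H740.TS.cl2_smul c (f1 s hs)) (f1' s' hs') (pull_ts hτ hc)) (fun k => ?_) fun k => ?_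
  · rw [h1, hB', hB] at hA3
    exact hA3
  · rw [← hv]
    rfl
  · rw [← hv']
    rfl

end Vale.Agent.P281.H511.HK
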