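import Vale.Agent.P281.H511.TS.Mk
import Vale.Agent.P281.H399.HK.Gen

/-!
# P281, project T-HK (helper511), block G2: change of the periods, biholomorphic maps
-/

open Set Filter Metric MeasureTheory Vale.Agent.P281.H713 Vale.Agent.P272.K
open scoped Topology ContDiff ComplexConjugate ComplexOrder

set_option linter.unusedSectionVars false

noncomputable section

namespace Vale.Agent.P281.H511.HK

open Vale.Agent.P281.H64.TK Vale.Agent.P281.H64.TK.TS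
open Vale.Agent.P281.H511.TS (HTr Hol cl_smul)
open Vale.Agent.P281.H83.HK (Hol2 Gen2 DetNe)

/-- the change of the periods -/
theorem k3_of_mark {d : ℕ} {E Γ E' Γ' : Type} [TopologicalSpace E] [Group Γ] [MulAction Γ E]
    [TopologicalSpace E'] [Group Γ'] [MulAction Γ' E'] {S : Sheets d E Γ} {S' : Sheets d E' Γ'}
    {n : ℕ} {M M₁ : Mark2 S n} {M' : Mark2 S' n} {A : Matrix (Fin n) (Fin n) ℤ}
    {B : Matrix (Fin n) (Fin n) ℝ} {v : Fin n → ℝ} (hA : IsUnit A.det)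
    (hA2 : ∀ α, Cl2 S α → M₁.cl α = (A.map (Int.cast : ℤ → ℂ)).mulVec (M.cl α))
    (hAB : (A.map (Int.cast : ℤ → ℝ)).transpose * B * A.map (Int.cast : ℤ → ℝ) = B)
    {κ α : Fin S.N → Cm d → L2 d} {κ' α' : Fin S'.N → Cm d → L2 d} {c : ℂ} (hκ : Cl2 S κ)
    (hα : Cl2 S α) (h1 : M₁.cl κ = M'.cl κ') (h2 : M₁.cl (fun i z => c • α i z) = M'.cl α')
    (hv : ∀ k, (M.cl κ k).re = v k) (hv' : ∀ k, (M'.cl κ' k).re = v k) :
    IsK3Change B v (M.cl α) (M'.cl α') c := by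
  refine ⟨A, hA, ?_, hAB, ?_⟩
  · funext k
    rw [← hv' k, ← h1, hA2 κ hκ]
    simp only [Matrix.mulVec, dotProduct, Matrix.map_apply, Complex.re_sum]
    refine Finset.sum_congr rfl fun l _ => ?_
    rw [← hv l]
    simp
  · rw [← h2, cl_smul M₁ hα c, hA2 α hα]

section pull
variable {d : ℕ} {E Γ : Type} [TopologicalSpace E] [Group Γ] [MulAction Γ E] [Subsingleton Γ]
  {E' Γ' : Type} [TopologicalSpace E'] [Group Γ'] [MulAction Γ' E'] [Subsingleton Γ']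
  {S : Sheets d E Γ} {S' : Sheets d E' Γ'}

/-- the trivial groups -/
def eqG (Γ Γ' : Type) [Group Γ] [Group Γ'] [Subsingleton Γ] [Subsingleton Γ'] : Γ ≃* Γ' where
  toFun _ := 1
  invFun _ := 1
  left_inv _ := Subsingleton.elim _ _
  right_inv _ := Subsingleton.elim _ _
  map_mul' _ _ := (one_mul 1).symm

theorem eqG_eqv (τ : E ≃ₜ E') (γ : Γ) (e : E) : τ (γ • e) = eqG Γ Γ' γ • τ e := by
  rw [Subsingleton.elim γ 1, one_smul, Subsingleton.elim (eqG Γ Γ' 1) 1, one_smul]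

/-- `S'` on `E` -/
def pS (S' : Sheets d E' Γ') (τ : E ≃ₜ E') : Sheets d E Γ := S'.pull τ (eqG Γ Γ') (eqG_eqv τ)

theorem holCompat_of {τ : E ≃ₜ E'} (hτ : Hol S S' τ) : HolCompat S (pS S' τ) := by
  intro i j z hz w hw γ he
  have he' : τ (S.σ i z) = S'.σ j w := by
    have h1 : S.σ i z = γ • τ.symm (S'.σ j w) := he
    rw [Subsingleton.elim γ 1, one_smul] at h1
    rw [h1, τ.apply_symm_apply]
  obtain ⟨θ, ⟨h1, h2, h3⟩, h4⟩ := hτ i j z hz w hw he'
  refine ⟨θ, h1, h2, h4, ?_⟩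
  filter_upwards [h3] with u hu
  show S.σ i u = γ • τ.symm (S'.σ j (θ u))
  rw [Subsingleton.elim γ 1, one_smul, ← hu, τ.symm_apply_apply]

theorem hol2_pS {τ : E ≃ₜ E'} {s : Fin S'.N → Cm d → Matrix (Fin d) (Fin d) ℂ} (hs : Hol2 S' s) :
    Hol2 (pS (Γ := Γ) S' τ) s where
  hol := hs.hol
  alt := hs.alt
  closed := hs.closed
  change i j z hz z' hz' θ h1 h2 h3 := by
    refine hs.change i j z hz z' hz' θ h1 h2 ?_
    filter_upwards [h3] with u hu
    exact τ.symm.injective hu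

/-- **the pull-back of a holomorphic 2-form is a multiple of the generator** -/
theorem exists_mul {τ : E ≃ₜ E'} (hτ : Hol S S' τ)
    {s : Fin S.N → Cm d → Matrix (Fin d) (Fin d) ℂ} (hs : Gen2 S s)
    {s' : Fin S'.N → Cm d → Matrix (Fin d) (Fin d) ℂ} (hs' : Hol2 S' s') :
    ∃ c : ℂ, ∀ i j, ∀ z ∈ ball (0 : Cm d) 3, ∀ z' ∈ ball (0 : Cm d) 3, ∀ θ,
      HTr S S' τ i j z z' θ →
        c • s i z = (H64.TK.jac θ z).transpose * s' j z' * H64.TK.jac θ z := by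
  obtain ⟨c, hc⟩ := hs.unique _ (H399.HK.pbM_hol (holCompat_of hτ) (hol2_pS (Γ := Γ) (τ := τ) hs'))
  refine ⟨c, fun i j z hz z' hz' θ hθ => ?_⟩
  rw [← hc i z hz]
  refine H399.HK.pbM_eq (S' := pS S' τ) (hol2_pS hs') hz' ⟨hθ.1, hθ.2.1, ?_⟩
  filter_upwards [hθ.2.2] with u hu
  show S.σ i u = τ.symm (S'.σ j (θ u))
  rw [← hu, τ.symm_apply_apply]

end pull

end Vale.Agent.P281.H511.HK
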