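import Vale.Agent.P281.H511.HK.Change
import Vale.Agent.P281.H83.HK.Defs

/-!
# P281, project T-HK (helper511), block G2: the `2N`-canonical form `(det s) ^ N`
-/

open Set Filter Metric MeasureTheory Vale.Agent.P281 Vale.Agent.P281.H713 Vale.Agent.P272.K
open scoped Topology ContDiff Manifold ComplexConjugate ENNReal

set_option linter.unusedSectionVars false

noncomputable section

namespace Vale.Agent.P281.H511.HK

open Vale.Agent.P281.H64.TK Vale.Agent.P281.H64.TK.TS Vale.Agent.P281.H603.K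
open Vale.Agent.P281.H603.TE (sub fsub fW idx rep exists_rep ccs sub_sigma fsub_sigma')
open Vale.Agent.P281.H511.TS (HTr Hol NB shf shS shS_one shS_mul sub_shf lint_int)
open Vale.Agent.P281.H83.HK (Hol2 Gen2 DetNe Fam2 volS)

attribute [local instance] ccs

/-! ### The character of `Γ` -/

section char
variable {d : ℕ} {E Γ : Type} [TopologicalSpace E] [Group Γ] [MulAction Γ E]
  [(⊥ : Subgroup Γ).FiniteIndex] [ContinuousConstSMul Γ E] {S : Sheets d E Γ}

/-- translates of holomorphic 2-forms -/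
theorem hol2_shf {s : Fin (sub S (⊥ : Subgroup Γ)).N → Cm d → Matrix (Fin d) (Fin d) ℂ}
    (hs : Hol2 (sub S ⊥) s) (γ : Γ) :
    Hol2 (sub S (⊥ : Subgroup Γ)) fun i z => s (shS S γ i) z where
  hol i := hs.hol _
  alt i := hs.alt _
  closed i := hs.closed _
  change i j z hz z' hz' θ hθ hθz hev := by
    refine hs.change _ _ z hz z' hz' θ hθ hθz ?_
    filter_upwards [hev] with u hu
    rw [sub_shf, sub_shf, hu]

/-- **`Γ` acts on the generator by a character** -/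
theorem exists_char {s : Fin (sub S (⊥ : Subgroup Γ)).N → Cm d → Matrix (Fin d) (Fin d) ℂ}
    (hs : Gen2 (sub S ⊥) s) (γ : Γ) : ∃ c : ℂ, c ^ Nat.card Γ = 1 ∧
      ∀ i, ∀ z ∈ ball (0 : Cm d) 3, s (shS S γ i) z = c • s i z := by
  obtain ⟨c, hc⟩ := hs.unique _ (hol2_shf hs.form γ)
  have h1 : ∀ k : ℕ, ∀ i, ∀ z ∈ ball (0 : Cm d) 3, s (shS S (γ ^ k) i) z = c ^ k • s i z := by
    intro k
    induction k with
    | zero =>
      intro i z hz
      rw [pow_zero, pow_zero, one_smul, shS_one]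
    | succ k ih =>
      intro i z hz
      rw [pow_succ', shS_mul, hc _ z hz, ih i z hz, pow_succ', mul_smul]
  obtain ⟨i₀, z₀, hz₀, h0⟩ := hs.ne
  have h2 := h1 (Nat.card Γ) i₀ z₀ hz₀
  rw [pow_card_eq_one', shS_one] at h2
  refine ⟨c, ?_, hc⟩
  have h4 : (c ^ Nat.card Γ - 1) • s i₀ z₀ = 0 := by
    rw [sub_smul, ← h2, one_smul, sub_self]
  rcases smul_eq_zero.1 h4 with h5 | h5
  · exact sub_eq_zero.1 h5
  · exact absurd h5 h0

theorem det_inv {s : Fin (sub S (⊥ : Subgroup Γ)).N → Cm d → Matrix (Fin d) (Fin d) ℂ}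
    (hs : Gen2 (sub S ⊥) s) (γ : Γ) (i : Fin (sub S (⊥ : Subgroup Γ)).N) {z : Cm d}
    (hz : z ∈ ball (0 : Cm d) 3) :
    (s (shS S γ i) z).det ^ Nat.card Γ = (s i z).det ^ Nat.card Γ := by
  obtain ⟨c, h1, h2⟩ := exists_char hs γ
  rw [h2 i z hz, Matrix.det_smul, mul_pow, ← pow_mul, mul_comm (Fintype.card _) _, pow_mul, h1,
    one_pow, one_mul]

end char

theorem analyticAt_det {V : Type} [NormedAddCommGroup V] [NormedSpace ℂ V] {d : ℕ}
    {s : V → Matrix (Fin d) (Fin d) ℂ} {z : V} (h : ∀ j k, AnalyticAt ℂ (fun u => s u j k) z) :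
    AnalyticAt ℂ (fun u => (s u).det) z := by
  simp only [Matrix.det_apply']
  refine Finset.analyticAt_fun_sum _ fun σ _ => ?_
  exact analyticAt_const.mul (Finset.analyticAt_fun_prod _ fun i _ => h _ _)

variable {p d : ℕ} {Z Y : Type} [TopologicalSpace Z] [T2Space Z] [ChartedSpace (Cm (p + d)) Z]
  [IsManifold 𝓘(ℂ, Cm (p + d)) ω Z] [TopologicalSpace Y] [T2Space Y] [ChartedSpace (Cm p) Y]
  [IsManifold 𝓘(ℂ, Cm p) ω Y] {f : Z → Y} {L : LG (p := p) (d := d) f}

/-- the form `(det s) ^ |Γ|` -/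
def dN (L : LG (p := p) (d := d) f) (s : IX L → Cm p × Cm d → Matrix (Fin d) (Fin d) ℂ)
    (i : IX L) (r : Cm p × Cm d) : ℂ := (s i r).det ^ Nat.card L.Γ

/-- **it is an invariant `2 |Γ|`-canonical form** -/
theorem isND_det {s : IX L → Cm p × Cm d → Matrix (Fin d) (Fin d) ℂ}
    (hs : Fam2 (fsub L.𝓕 (⊥ : Subgroup L.Γ)) L.T' s) :
    IsND L (2 * Nat.card L.Γ) (dN L s) where
  hol i t ht z hz := (analyticAt_det fun j k => hs.hol i t ht z hz j k).pow _
  change t ht i j z hz z' hz' θ hθ hθz hev := by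
    have h1 := (hs.gen t (L.hT' ht) ht).form.change i j z hz z' hz' θ hθ hθz hev
    simp only [dN]
    rw [h1, Matrix.det_mul, Matrix.det_mul, Matrix.det_transpose, pow_mul, ← mul_pow]
    congr 1
    ring
  inv γ i t ht z hz := det_inv (S := L.𝓕.at t (L.hT' ht)) (hs.gen t (L.hT' ht) ht) γ i hz

theorem card_pos (L : LG (p := p) (d := d) f) : 0 < Nat.card L.Γ := by
  have h1 : (⊥ : Subgroup L.Γ).index ≠ 0 := L.fin.index_ne_zero
  rw [Subgroup.index_bot] at h1
  exact Nat.pos_of_ne_zero h1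

/-- **the norm of the form** -/
theorem lint_det {s : IX L → Cm p × Cm d → Matrix (Fin d) (Fin d) ℂ}
    (hs : Fam2 (fsub L.𝓕 (⊥ : Subgroup L.Γ)) L.T' s)
    (hf : ContMDiff 𝓘(ℂ, Cm (p + d)) 𝓘(ℂ, Cm p) ω f) {q : Cm d → Z}
    {v₀ : Cm d} {r : ℝ} (hq : IsPolydisc (Cm (p + d)) f q v₀ r) (hy : f (q v₀) ∈ U L) :
    ∫⁻ u in ball v₀ r, ‖pull (Cm (p + d)) (eta L (2 * Nat.card L.Γ) (dN L s)) q u‖ₑ ^
        (2 / ((2 * Nat.card L.Γ : ℕ) : ℝ)) ≤
      ENNReal.ofReal (volS (SK L hy) fun i z => s i (L.χ (f (q v₀)), z)) := by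
  have hc := card_pos L
  refine lint_eta (isND_det hs) hf (by omega) hq hy (fun i => ?_) (fun i z => norm_nonneg _) ?_
  · refine ContinuousOn.norm fun z hz => ?_
    have h1 : AnalyticAt ℂ (fun r => (s i r).det) (L.χ (f (q v₀)), z) :=
      analyticAt_det fun j k => hs.hol i _ hy.2 z hz j k
    exact (h1.continuousAt.comp (f := fun z : Cm d => (L.χ (f (q v₀)), z))
      (by fun_prop)).continuousWithinAt
  · intro i z hz
    have hc' : (Nat.card L.Γ : ℝ) ≠ 0 := by exact_mod_cast hc.ne'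
    simp only [dN]
    rw [enorm_pow, ← ENNReal.rpow_natCast, ← ENNReal.rpow_mul]
    have h1 : (Nat.card L.Γ : ℝ) * (2 / ((2 * Nat.card L.Γ : ℕ) : ℝ)) = 1 := by
      push_cast
      field_simp
    rw [h1, ENNReal.rpow_one, ← ofReal_norm]

end Vale.Agent.P281.H511.HK
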