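import Vale.Agent.P281.H511.HK.Cls
import Vale.Agent.P281.H511.HK.Det
import Vale.Agent.P281.H511.TS.Fin

/-!
# P281, project T-HK (helper511), block G2': the periods and the forms
-/

open Set Filter Metric MeasureTheory Vale.Agent.P281 Vale.Agent.P281.H713 Vale.Agent.P272.K
open scoped Topology ContDiff Manifold ComplexConjugate ENNReal

set_option linter.unusedSectionVars false

noncomputable section

namespace Vale.Agent.P281.H511.HK

open Vale.Agent.P281.H64.TK Vale.Agent.P281.H64.TK.TS Vale.Agent.P281.H603.K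
open Vale.Agent.P281.H64 (IsProperFibration)
open Vale.Agent.P281.H603.TE (sub fsub fW idx rep exists_rep ccs sub_sigma fsub_sigma')
open Vale.Agent.P281.H511.TS (HTr Hol triv)
open Vale.Agent.P281.H83.HK

attribute [local instance] ccs

section
variable {p d : ℕ} {Z Y : Type} [TopologicalSpace Z] [T2Space Z] [ChartedSpace (Cm (p + d)) Z]
  [IsManifold 𝓘(ℂ, Cm (p + d)) ω Z] [TopologicalSpace Y] [T2Space Y] [ChartedSpace (Cm p) Y]
  [IsManifold 𝓘(ℂ, Cm p) ω Y] {f : Z → Y}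
  {w : Chart (p + d) Z → Cm (p + d) → Matrix (Fin (p + d)) (Fin (p + d)) ℂ} {N n : ℕ}
  {B : Matrix (Fin n) (Fin n) ℝ} {v : Fin n → ℝ} {R : ℝ}

/-- the geometric data -/
@[reducible] def lg (L : LocT (p := p) (d := d) f w N B v R) : LG (p := p) (d := d) f where
  E := L.E
  Γ := L.Γ
  𝓕 := L.𝓕
  q := L.q
  χ := L.χ
  model := L.model
  T' := L.T'
  hT' := L.hT'
  isOpen' := L.isOpen'

/-- the form `(det s) ^ N` -/
def dS (L : LocT (p := p) (d := d) f w N B v R) (i : IX (lg L)) (r : Cm p × Cm d) : ℂ :=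
  (L.s i r).det ^ N

theorem dS_eq (L : LocT (p := p) (d := d) f w N B v R) : dS L = dN (lg L) L.s := by
  funext i r
  show (L.s i r).det ^ N = (L.s i r).det ^ Nat.card L.Γ
  rw [L.card]

theorem isND_dS (L : LocT (p := p) (d := d) f w N B v R) : IsND (lg L) (2 * N) (dS L) := by
  have h1 := isND_det (L := lg L) L.fam2
  rw [← dS_eq] at h1
  have h2 : Nat.card (lg L).Γ = N := L.card
  rwa [h2] at h1

variable {L : LocT (p := p) (d := d) f w N B v R}

theorem gen {y : Y} (hy : y ∈ U (lg L)) :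
    Gen2 (SK (lg L) hy) (fun i z => L.s i (L.χ y, z)) := L.fam2.gen _ (L.hT' hy.2) hy.2

/-- the period and the norm of the form -/
theorem period (hPer : Per2Stmt) (hd : 2 ≤ d) {y : Y} (hy : y ∈ U (lg L)) :
    IsK3Period B v (L.P (L.χ y)) := by
  have h1 := hPer d L.E (⊥ : Subgroup L.Γ) (SK (lg L) hy) (fW ⊥ L.W (L.χ y))
    (fun i z => L.s i (L.χ y, z)) n (L.M _ hy.2) hd (H603.TE.kah_fW ⊥ L.kfam (L.hT' hy.2))
    (gen hy)
  rw [L.form _ hy.2, L.kah _ hy.2, ← L.per _ hy.2] at h1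
  exact h1.1

theorem exists_ne (hPer : Per2Stmt) (hd : 2 ≤ d) (hR : 0 < R) {y : Y} (hy : y ∈ U (lg L)) :
    ∃ i, ∃ z ∈ ball (0 : Cm d) 3, dS L i (L.χ y, z) ≠ 0 := by
  by_contra! h
  have h1 := L.nrm _ hy.2
  have h2 : 0 < R * (bil B (L.P (L.χ y)) (star (L.P (L.χ y)))).re ^ d :=
    mul_pos hR (pow_pos (period hPer hd hy).pos _)
  have h3 : volS (SK (lg L) hy) (fun i z => L.s i (L.χ y, z)) = 0 := by
    unfold volS Sheets.int
    rw [Finset.sum_eq_zero, Complex.zero_re]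
    intro i _
    refine setIntegral_eq_zero_of_forall_eq_zero fun z hz => ?_
    have h4 : (L.s i (L.χ y, z)).det = 0 := by
      have h5 : (L.s i (L.χ y, z)).det ^ N = 0 := h i z (Sh.mem3 hz.1)
      exact eq_zero_of_pow_eq_zero h5
    simp only [h4, norm_zero, Complex.ofReal_zero]
  have h6 : volS (sub (L.𝓕.at (L.χ y) (L.hT' hy.2)) (⊥ : Subgroup L.Γ))
    (fun i z => L.s i (L.χ y, z)) = 0 := h3
  rw [h6] at h1
  rw [← h1] at h2
  norm_num at h2

/-- **change** -/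
theorem change (hK : KStmt) (hF : FormsStmt) (hPM : PullMark2Stmt) (hTM : TwoMark2Stmt)
    (hd : 2 ≤ d) (hf : ContMDiff 𝓘(ℂ, Cm (p + d)) 𝓘(ℂ, Cm p) ω f) (hw : IsKahler w)
    (L L' : LocT (p := p) (d := d) f w N B v R) {y : Y} (hy : y ∈ U (lg L))
    (hy' : y ∈ U (lg L')) :
    ∃ c : ℂ, IsK3Change B v (L.P (L.χ y)) (L'.P (L'.χ y)) c ∧
      ∀ x, f x = y → ∀ ξ : Fin d → Cm (p + d),
        (∀ l, mfderiv 𝓘(ℂ, Cm (p + d)) 𝓘(ℂ, Cm p) f x (ξ l) = 0) →
          eta (lg L') (2 * N) (dS L') x ξ = c ^ (d * N) * eta (lg L) (2 * N) (dS L) x ξ := by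
  obtain ⟨τ, ρ, hρ, hq, hτ, hmet⟩ := cmpK hK (by omega) hf hw (lg L) (lg L') L.pull L'.pull hy hy'
  have hS := gen (L := L) hy
  have hS' := gen (L := L') hy'
  obtain ⟨c, hc⟩ := exists_mul (S := SK (lg L) hy) (S' := SK (lg L') hy') hτ hS hS'.form
  refine ⟨c, ?_, ?_⟩
  · rw [L.per _ hy.2, L'.per _ hy'.2]
    exact k3_change (S := SK (lg L) hy) (S' := SK (lg L') hy') hF hPM hTM hd hτ (L.form _ hy.2)
      (L'.form _ hy'.2) (H603.TE.kah_fW ⊥ L.kfam (L.hT' hy.2))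
      (H603.TE.kah_fW ⊥ L'.kfam (L'.hT' hy'.2))
      (L.kah _ hy.2) (L'.kah _ hy'.2) hmet hS.form hS'.form hc
  · intro x hx ξ hξ
    refine eta_change hf (isND_dS L) (isND_dS L') hy hy' hq hτ ?_ hx hξ
    intro i j z hz z' hz' θ hθ
    have h1 := congrArg Matrix.det (hc i j z hz z' hz' θ hθ)
    rw [Matrix.det_smul, Fintype.card_fin, Matrix.det_mul, Matrix.det_mul,
      Matrix.det_transpose] at h1
    show c ^ (d * N) * (L.s i (L.χ y, z)).det ^ N = (L'.s j (L'.χ y, z')).det ^ N * _ ^ (2 * N)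
    rw [pow_mul, ← mul_pow, h1, pow_mul, ← mul_pow]
    congr 1
    ring

end

/-- **G2'** -/
theorem form2 (hK : KStmt) (hF : FormsStmt) (hPer : Per2Stmt) (hPM : PullMark2Stmt)
    (hTM : TwoMark2Stmt) : Form2Stmt := by
  classical
  intro p d N Z Y _ _ _ _ _ _ _ _ f S w n B v R hN hd hR hf hP hw hL
  choose L hL1 hL2 hL3 using hL
  have hU : ∀ a : {y // y ∉ S}, a.1 ∈ U (lg (L a.1 a.2)) := fun a =>
    ⟨hL1 a.1 a.2, hL2 a.1 a.2⟩
  have hUS : ∀ (a : {y // y ∉ S}) (y : Y), y ∈ U (lg (L a.1 a.2)) → y ∉ S := by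
    intro a y hy
    have h1 := hL3 a.1 a.2 _ hy.2
    rwa [(L a.1 a.2).χ.left_inv hy.1] at h1
  refine ⟨{y // y ∉ S}, fun a => U (lg (L a.1 a.2)), fun _ _ => triv,
    fun a y _ => (L a.1 a.2).P ((L a.1 a.2).χ y),
    fun a _ => eta (lg (L a.1 a.2)) (2 * N) (dS (L a.1 a.2)), ?_⟩
  exact {
    cover := fun y => ⟨fun hy => ⟨⟨y, hy⟩, hU ⟨y, hy⟩⟩, fun ⟨a, ha⟩ => hUS a y ha⟩
    isOpen := fun a => isOpen_U _
    hol := fun a x y _ => contMDiffAt_const
    polarized := fun a y _ => ⟨ContinuousLinearEquiv.refl ℂ _, fun x x' => by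
      rw [Subsingleton.elim (ContinuousLinearEquiv.refl ℂ (EuclideanSpace ℂ (Fin 0)) (triv x)) 0,
        inner_zero_left]
      rfl⟩
    period := fun a y hy j => ⟨period hPer hd hy, fun i => by
      have h1 : ContDiffAt ℂ ω (fun t => (L a.1 a.2).P t i) ((L a.1 a.2).χ y) :=
        ((L a.1 a.2).holP i _ hy.2).contDiffAt
      exact ContMDiffAt.comp y (g := fun t => (L a.1 a.2).P t i) (f := (L a.1 a.2).χ)
        h1.contMDiffAt (contMDiffAt_χ (lg (L a.1 a.2)) hy)⟩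
    chart := fun x hx => by
      obtain ⟨i, ζ, h⟩ := chart (L := lg (L (f x) hx)) hf (hU ⟨f x, hx⟩)
      exact ⟨fun k z => ζ z k, fibreChart hf (hU ⟨f x, hx⟩) h⟩
    forms := fun a x hx => forms (isND_dS _) hf hx
    rank := fun a y hy => rank (isND_dS _) hf hy (exists_ne hPer hd hR hy)
    change := fun a b y hy => by
      obtain ⟨c, h1, h2⟩ := change hK hF hPM hTM hd hf hw (L a.1 a.2) (L b.1 b.2) hy.1 hy.2
      refine ⟨ContinuousLinearEquiv.refl ℂ _, Equiv.refl _, fun _ => c, Equiv.refl _,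
        ⟨fun m => ⟨m, Subsingleton.elim _ _⟩, fun m => ⟨m, Subsingleton.elim _ _⟩,
          fun _ _ => rfl⟩, fun j => ⟨rfl, rfl, rfl, h1⟩, fun x hx _ i ξ hξ => ?_⟩
      rw [pow_zero, one_mul, Fin.prod_univ_one]
      exact h2 x hx ξ hξ
    norm := by
      refine ⟨R ^ N, fun a i q v₀ r hq hy _ G _ => ?_⟩
      have h1 := period (L := L a.1 a.2) hPer hd hy
      have h2 := (L a.1 a.2).nrm _ hy.2
      have h3 : ∫⁻ u in ball v₀ r, ‖pull (Cm (p + d)) (eta (lg (L a.1 a.2)) (2 * N)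
          (dS (L a.1 a.2))) q u‖ₑ ^ (2 / ((2 * N : ℕ) : ℝ)) ≤
          ENNReal.ofReal (volS (SK (lg (L a.1 a.2)) hy)
            fun i z => (L a.1 a.2).s i ((L a.1 a.2).χ (f (q v₀)), z)) := by
        have h0 := lint_det (L := lg (L a.1 a.2)) (L a.1 a.2).fam2 hf hq hy
        have hc : Nat.card (lg (L a.1 a.2)).Γ = N := (L a.1 a.2).card
        rw [← dS_eq, hc] at h0
        exact h0
      have h4 : periodNorm (fun _ : Fin 1 => B) (fun _ => d * N)
          (fun _ => (L a.1 a.2).P ((L a.1 a.2).χ (f (q v₀)))) =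
          (bil B ((L a.1 a.2).P ((L a.1 a.2).χ (f (q v₀))))
            (star ((L a.1 a.2).P ((L a.1 a.2).χ (f (q v₀)))))).re ^ (d * N) := by
        unfold periodNorm
        rw [Fin.prod_univ_one]
      have h5 : 0 ≤ volS (SK (lg (L a.1 a.2)) hy)
            (fun i z => (L a.1 a.2).s i ((L a.1 a.2).χ (f (q v₀)), z)) := by
        unfold volS Sheets.int
        rw [Complex.re_sum]
        refine Finset.sum_nonneg fun i _ => ?_
        rw [integral_complex_ofReal, Complex.ofReal_re]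
        exact integral_nonneg fun z => norm_nonneg _
      rw [mul_zero, pow_zero, mul_one]
      refine le_trans (pow_le_pow_left₀ bot_le h3 (2 * N)) (le_of_eq ?_)
      rw [← ENNReal.ofReal_pow h5, h4, pow_mul, pow_mul, ← mul_pow]
      exact congrArg (fun t : ℝ => ENNReal.ofReal (t ^ N)) h2 }

end Vale.Agent.P281.H511.HK
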