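import Vale.Agent.P281.H511.HK.Slice
import Vale.Agent.P281.H511.TS.Norm

/-!
# P281, project T-HK (helper511), block G2: the norm, the rank and the local expression of the form
-/

open Set Filter Metric MeasureTheory Vale.Agent.P281 Vale.Agent.P281.H713 Vale.Agent.P272.K
open scoped Topology ContDiff Manifold ComplexConjugate ENNReal

set_option linter.unusedSectionVars false

noncomputable section

namespace Vale.Agent.P281.H511.HK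

open Vale.Agent.P281.H64.TK Vale.Agent.P281.H64.TK.TS Vale.Agent.P281.H603.K
open Vale.Agent.P281.H864.K
open Vale.Agent.P281.H603.TE (sub fsub fW idx rep exists_rep ccs sub_sigma fsub_sigma' lift_polyM
  polyIn_sub)
open Vale.Agent.P281.H511.TS (lint_int enorm_pow_rpow)

attribute [local instance] ccs

variable {p d : ℕ} {Z Y : Type} [TopologicalSpace Z] [T2Space Z] [ChartedSpace (Cm (p + d)) Z]
  [IsManifold 𝓘(ℂ, Cm (p + d)) ω Z] [TopologicalSpace Y] [T2Space Y] [ChartedSpace (Cm p) Y]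
  [IsManifold 𝓘(ℂ, Cm p) ω Y] {f : Z → Y} {L : LG (p := p) (d := d) f}

theorem enorm_rpow {N : ℕ} (hN : 0 < N) (b a : ℂ) :
    ‖b * a ^ N‖ₑ ^ (2 / (N : ℝ)) = ENNReal.ofReal (‖a‖ ^ 2) * ‖b‖ₑ ^ (2 / (N : ℝ)) := by
  rw [enorm_mul, ENNReal.mul_rpow_of_nonneg _ _ (by positivity), enorm_pow_rpow hN, mul_comm]

/-- the pull-back of the form by a polydisc -/
theorem pull_eta {N : ℕ} {D : IX L → Cm p × Cm d → ℂ} (hD : IsND L N D)
    (hf : ContMDiff 𝓘(ℂ, Cm (p + d)) 𝓘(ℂ, Cm p) ω f) {q : Cm d → Z} {v₀ : Cm d}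
    {r : ℝ} (hq : IsPolydisc (Cm (p + d)) f q v₀ r) (hy : f (q v₀) ∈ U L) {q' : Cm d → L.E}
    (hqq : ∀ u ∈ ball v₀ r, L.q (L.χ (f (q v₀))) (q' u) = q u) {u : Cm d} (hu : u ∈ ball v₀ r)
    {i : IX L} {z : Cm d} (hz : z ∈ ball (0 : Cm d) 3) {γ : L.Γ} {θ : Cm d → Cm d}
    (hθ : AnalyticAt ℂ θ u) (hθz : θ u = z)
    (hev : ∀ᶠ u' in 𝓝 u, q' u' = γ • sg L i (L.χ (f (q v₀))) (θ u')) :
    pull (Cm (p + d)) (eta L N D) q u =
      D i (L.χ (f (q v₀)), z) * (H64.TK.jac θ u).det ^ N := by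
  have hfq : ∀ u' ∈ ball v₀ r, f (q u') = f (q v₀) := hq.2.2
  have hfu := hfq u hu
  have hx : f (q u) ∈ U L := by rw [hfu]; exact hy
  have h1 : L.q (L.χ (f (q u))) (sg L i (L.χ (f (q u))) z) = q u := by
    rw [← q_smul L hx γ, hfu, ← hqq u hu, hev.self_of_nhds, hθz]
  obtain ⟨ζ, hco, hζz⟩ := exists_co hf hx hz h1
  have hqc : ContinuousAt q u := (hq.1 u hu).continuousAt
  have h2 : (fun u' => ζ (q u')) =ᶠ[𝓝 u] θ := by
    have e1 : ∀ᶠ u' in 𝓝 u, θ u' ∈ ball (0 : Cm d) 3 := hθ.continuousAt.eventually (by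
      rw [hθz]
      exact isOpen_ball.mem_nhds hz)
    have e2 : ∀ᶠ u' in 𝓝 u, ζ (q u') ∈ ball (0 : Cm d) 3 :=
      hqc.eventually (hco.1.continuousAt.eventually (isOpen_ball.mem_nhds hco.2.1))
    filter_upwards [e1, e2, hev, hqc.eventually hco.2.2, isOpen_ball.mem_nhds hu]
      with u' a1 a2 a3 a4 a5
    rw [hfq u' a5] at a4
    refine eq_of_q (j := i) (L.hT' hy.2) a2 a1 ?_
    rw [a4, ← q_smul L hy γ, ← a3, hqq u' a5]
  have hqm : MDifferentiableAt 𝓘(ℂ, Cm d) 𝓘(ℂ, Cm (p + d)) q u :=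
    (hq.1 u hu).mdifferentiableAt (by simp)
  -- vertical vectors
  have hvert : ∀ l : Fin d, mfderiv 𝓘(ℂ, Cm (p + d)) 𝓘(ℂ, Cm p) f (q u)
      (mfderiv 𝓘(ℂ, Cm d) 𝓘(ℂ, Cm (p + d)) q u (Pi.single l 1)) = 0 := by
    intro l
    have h3 := mfderiv_comp_apply u (g := f) (f := q) ((hf (q u)).mdifferentiableAt (by simp))
      hqm (Pi.single l 1)
    have h4 : (f ∘ q) =ᶠ[𝓝 u] fun _ => f (q v₀) := by
      filter_upwards [isOpen_ball.mem_nhds hu] with u' hu'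
      exact hfq u' hu'
    rw [h4.mfderiv_eq, mfderiv_const] at h3
    exact h3.symm
  have h7 : Dt ζ (q u) (fun l => (mfderiv 𝓘(ℂ, Cm d) 𝓘(ℂ, Cm (p + d)) q u
      (Pi.single l 1 : Cm d) : Cm (p + d))) = (H64.TK.jac θ u).det := by
    refine (Dt_eq (hco.1.mdifferentiableAt (by simp)) _).trans ?_
    congr 1
    ext k l
    have h5 := mfderiv_comp_apply u (g := ζ) (f := q) (hco.1.mdifferentiableAt (by simp))
      hqm (Pi.single l 1 : Cm d)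
    have h6 : (ζ ∘ q) =ᶠ[𝓝 u] θ := h2
    rw [h6.mfderiv_eq, mfderiv_eq_fderiv] at h5
    exact (congrFun h5 k).symm
  have h8 := eta_eq hD hf hx hco (ξ := fun l => (mfderiv 𝓘(ℂ, Cm d) 𝓘(ℂ, Cm (p + d)) q u
      (Pi.single l 1 : Cm d) : Cm (p + d))) hvert
  refine Eq.trans (show pull (Cm (p + d)) (eta L N D) q u = _ from h8) ?_
  rw [h7, hζz, hfu]

/-- **the norm**: `G i z = |D i (t, z)| ^ (2 / N)` -/
theorem lint_eta {N : ℕ} {D : IX L → Cm p × Cm d → ℂ} (hD : IsND L N D)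
    (hf : ContMDiff 𝓘(ℂ, Cm (p + d)) 𝓘(ℂ, Cm p) ω f) (hN : 0 < N) {q : Cm d → Z}
    {v₀ : Cm d} {r : ℝ} (hq : IsPolydisc (Cm (p + d)) f q v₀ r) (hy : f (q v₀) ∈ U L)
    {G : Fin (SK L hy).N → Cm d → ℝ} (hG : ∀ i, ContinuousOn (G i) (ball 0 3))
    (h0 : ∀ i z, 0 ≤ G i z)
    (hGD : ∀ i, ∀ z ∈ ball (0 : Cm d) 3,
      ‖D i (L.χ (f (q v₀)), z)‖ₑ ^ (2 / (N : ℝ)) ≤ ENNReal.ofReal (G i z)) :
    ∫⁻ u in ball v₀ r, ‖pull (Cm (p + d)) (eta L N D) q u‖ₑ ^ (2 / (N : ℝ)) ≤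
      ENNReal.ofReal ((SK L hy).int fun i z => ((G i z : ℝ) : ℂ)).re := by
  rcases le_or_gt r 0 with hr | hr
  · rw [ball_eq_empty.2 hr, Measure.restrict_empty, lintegral_zero_measure]
    exact bot_le
  obtain ⟨q', hqq, hpoly⟩ := lift_polyM L.model hy.1 (L.hT' hy.2) hq rfl hr
  rw [← lint_int (SK L hy) hG h0]
  refine H485.U.lint_poly_le (polyIn_sub ⊥ hpoly) _ _ ?_
  intro i u hu z hz γ θ hθ hθz hev
  rw [pull_eta hD hf hq hy hqq hu hz (γ := (γ : L.Γ)) hθ hθz hev, enorm_rpow hN]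
  gcongr
  exact hGD i z hz

/-! ### Local expression, rank -/

theorem holAt_co {x : Z} {ζ : Z → Cm d}
    (h : ContMDiffAt 𝓘(ℂ, Cm (p + d)) 𝓘(ℂ, Cm d) ω ζ x) (k : Fin d) :
    J.HolAt (Cm (p + d)) (fun z => ζ z k) x := by
  have h1 : ContMDiffAt 𝓘(ℂ, Cm d) 𝓘(ℂ, ℂ) ω
      (ContinuousLinearMap.proj (R := ℂ) (φ := fun _ : Fin d => ℂ) k) (ζ x) :=
    ((ContinuousLinearMap.proj (R := ℂ) (φ := fun _ : Fin d => ℂ) k).contDiff).contMDiff _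
  exact ContMDiffAt.comp x (g := ContinuousLinearMap.proj (R := ℂ) (φ := fun _ : Fin d => ℂ) k)
    (f := ζ) h1 h

theorem fibreChart {x : Z} (hf : ContMDiff 𝓘(ℂ, Cm (p + d)) 𝓘(ℂ, Cm p) ω f) (hx : f x ∈ U L)
    {i : IX L} {ζ : Z → Cm d} (h : IsCo L x i ζ) :
    IsFibreChart (Cm (p + d)) (Cm p) f (fun k z => ζ z k) x := by
  refine ⟨holAt_co h.1, fun ξ hξ h0 => co_inj hf hx h hξ ?_⟩
  funext k
  rw [← dif_coord (h.1.mdifferentiableAt (by simp)) k ξ]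
  exact h0 k

theorem holAt_s {N : ℕ} {D : IX L → Cm p × Cm d → ℂ} (hD : IsND L N D) {x : Z}
    (hf : ContMDiff 𝓘(ℂ, Cm (p + d)) 𝓘(ℂ, Cm p) ω f) (hx : f x ∈ U L)
    {i : IX L} {ζ : Z → Cm d} (h : IsCo L x i ζ) :
    J.HolAt (Cm (p + d)) (fun z => D i (L.χ (f z), ζ z)) x := by
  have h1 : ContDiffAt ℂ ω (fun r : Cm p × Cm d => D i r) (L.χ (f x), ζ x) :=
    (hD.hol i _ hx.2 _ h.2.1).contDiffAt
  have h7 : ContMDiffAt 𝓘(ℂ, Cm (p + d)) 𝓘(ℂ, Cm p) ω (fun x' => L.χ (f x')) x :=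
    ContMDiffAt.comp x (g := L.χ) (f := f) (contMDiffAt_χ L hx) (hf x)
  have h8 : ContMDiffAt 𝓘(ℂ, Cm (p + d)) 𝓘(ℂ, Cm p × Cm d) ω
      (fun x' => (L.χ (f x'), ζ x')) x := by
    rw [modelWithCornersSelf_prod, ← chartedSpaceSelf_prod]
    exact h7.prodMk h.1
  exact ContMDiffAt.comp x (g := fun r : Cm p × Cm d => D i r)
    (f := fun x' => (L.χ (f x'), ζ x')) h1.contMDiffAt h8

theorem forms {N : ℕ} {D : IX L → Cm p × Cm d → ℂ} (hD : IsND L N D) {x : Z}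
    (hf : ContMDiff 𝓘(ℂ, Cm (p + d)) 𝓘(ℂ, Cm p) ω f) (hx : f x ∈ U L) :
    IsFibreForms (t := 1) (Cm (p + d)) (Cm p) f N (fun _ => 0) (fun _ => eta L N D) x := by
  intro T e hT he
  obtain ⟨i, ζ, h⟩ := chart hf hx
  refine ⟨fun k z => ζ z k, fun _ z => D i (L.χ (f z), ζ z), fibreChart hf hx h,
    fun _ => holAt_s hD hf hx h, ?_⟩
  filter_upwards [h.near, eventually_mem L hf hx] with z hz hU _ _ ξ hξ
  simp only [pow_zero, Finset.prod_const_one, mul_one]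
  rw [eta_eq hD hf hU hz hξ]
  rfl

theorem rank {N : ℕ} {D : IX L → Cm p × Cm d → ℂ} (hD : IsND L N D)
    (hf : ContMDiff 𝓘(ℂ, Cm (p + d)) 𝓘(ℂ, Cm p) ω f) {y : Y} (hy : y ∈ U L)
    (hne : ∃ i, ∃ z ∈ ball (0 : Cm d) 3, D i (L.χ y, z) ≠ 0) :
    IsOfRank (t := 1) (Cm (p + d)) (Cm p) f (fun _ => 0) 0 (fun _ => eta L N D) y := by
  obtain ⟨i, z, hz, h0⟩ := hne
  have hfx := f_par hy i z
  have hx : f (par L y i z) ∈ U L := by rw [hfx]; exact hy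
  obtain ⟨ζ, h, hζ⟩ := exists_co (x := par L y i z) hf hx hz (by rw [hfx])
  refine ⟨par L y i z, hfx, fun D hD => absurd rfl hD, 0, Fin.elim0, Fin.elim0,
    ⟨fun l => tg (L := L) (f (par L y i z)) i (ζ (par L y i z)) (Pi.single l 1),
      fun l => vert_tg hf hx h _, ?_⟩, fun s => s.elim0,
    Eventually.of_forall fun _ s => s.elim0, fun c _ => Subsingleton.elim _ _⟩
  show eta L N D (par L y i z) (fun l => tg (L := L) (f (par L y i z)) i (ζ (par L y i z))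
    (Pi.single l 1)) ≠ 0
  rw [eta_eq hD hf hx h (fun l => vert_tg hf hx h _), Dt_tg hx h, one_pow, mul_one, hζ, hfx]
  exact h0

end Vale.Agent.P281.H511.HK
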