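import Vale.Agent.P281.H511.HK.Norm
import Vale.Agent.P281.H511.TS.Mk

/-!
# P281, project T-HK (helper511), block G2: two models, change of the forms
-/

open Set Filter Metric MeasureTheory Vale.Agent.P281 Vale.Agent.P281.H713 Vale.Agent.P272.K
open scoped Topology ContDiff Manifold ComplexConjugate ENNReal

set_option linter.unusedSectionVars false

noncomputable section

namespace Vale.Agent.P281.H511.HK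

open Vale.Agent.P281.H64.TK Vale.Agent.P281.H64.TK.TS Vale.Agent.P281.H603.K
open Vale.Agent.P281.H603.TE (sub fsub fW idx rep exists_rep ccs sub_sigma fsub_sigma')
open Vale.Agent.P281.H511.TS (HTr Hol)

attribute [local instance] ccs

variable {p d : ℕ} {Z Y : Type} [TopologicalSpace Z] [T2Space Z] [ChartedSpace (Cm (p + d)) Z]
  [IsManifold 𝓘(ℂ, Cm (p + d)) ω Z] [TopologicalSpace Y] [T2Space Y] [ChartedSpace (Cm p) Y]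
  [IsManifold 𝓘(ℂ, Cm p) ω Y] {f : Z → Y}

/-- comparison of the universal coverings -/
theorem cmpK {w : Chart (p + d) Z → Cm (p + d) → Matrix (Fin (p + d)) (Fin (p + d)) ℂ}
    (hK : KStmt) (hd : 0 < d) (hf : ContMDiff 𝓘(ℂ, Cm (p + d)) 𝓘(ℂ, Cm p) ω f)
    (hw : IsKahler w) (L L' : LG (p := p) (d := d) f)
    {W : Fin L.𝓕.N → Cm p × Cm d → Matrix (Fin p ⊕ Fin d) (Fin p ⊕ Fin d) ℂ}
    {W' : Fin L'.𝓕.N → Cm p × Cm d → Matrix (Fin p ⊕ Fin d) (Fin p ⊕ Fin d) ℂ}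
    (hW : IsPull w L.𝓕 L.q W) (hW' : IsPull w L'.𝓕 L'.q W') {y : Y} (hy : y ∈ U L)
    (hy' : y ∈ U L') :
    ∃ (τ : L.E ≃ₜ L'.E) (ρ : L.Γ ≃* L'.Γ), (∀ γ e, τ (γ • e) = ρ γ • τ e) ∧
      (∀ e, L'.q (L'.χ y) (τ e) = L.q (L.χ y) e) ∧
      Hol (SK L hy) (SK L' hy') τ ∧
      ∀ i j, ∀ z ∈ ball (0 : Cm d) 3, ∀ z' ∈ ball (0 : Cm d) 3, ∀ θ,
        HTr (SK L hy) (SK L' hy') τ i j z z' θ →
          fW (⊥ : Subgroup L.Γ) W (L.χ y) i z = (H64.TK.jac θ z).transpose *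
            fW (⊥ : Subgroup L'.Γ) W' (L'.χ y) j z' * (H64.TK.jac θ z).map conj := by
  obtain ⟨τ, ρ, hτ, hq, hol, hmet⟩ := hK p d Z Y f w L.E L.Γ L.𝓕 L.q L.χ L'.E L'.Γ L'.𝓕 L'.q L'.χ
    W W' hd hf L.model L'.model hw hW hW' _ (L.hT' hy.2) _ (L'.hT' hy'.2)
    (by rw [L.χ.left_inv hy.1, L'.χ.left_inv hy'.1])
  have key : ∀ (i : IX L) (j : IX L') (u u' : Cm d),
      τ (sg L i (L.χ y) u) = sg L' j (L'.χ y) u' ↔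
      τ (L.𝓕.σ (idx ⊥ L.𝓕.N i).1 (L.χ y) u) =
        ((ρ (rep ⊥ (idx ⊥ L.𝓕.N i).2))⁻¹ * rep ⊥ (idx ⊥ L'.𝓕.N j).2) •
          L'.𝓕.σ (idx ⊥ L'.𝓕.N j).1 (L'.χ y) u' := by
    intro i j u u'
    have h1 : τ (sg L i (L.χ y) u) = ρ (rep ⊥ (idx ⊥ L.𝓕.N i).2) •
      τ (L.𝓕.σ (idx ⊥ L.𝓕.N i).1 (L.χ y) u) :=
        hτ (rep ⊥ (idx ⊥ L.𝓕.N i).2) (L.𝓕.σ (idx ⊥ L.𝓕.N i).1 (L.χ y) u)
    have h2 : sg L' j (L'.χ y) u' = rep ⊥ (idx ⊥ L'.𝓕.N j).2 •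
      L'.𝓕.σ (idx ⊥ L'.𝓕.N j).1 (L'.χ y) u' := rfl
    rw [h1, h2, mul_smul, eq_inv_smul_iff]
  refine ⟨τ, ρ, hτ, hq, fun i j z hz z' hz' he => ?_, fun i j z hz z' hz' θ hθ => ?_⟩
  · obtain ⟨θ, k1, k2, k3, k4⟩ := hol _ _ z hz z' hz' _ ((key i j z z').1 he)
    refine ⟨θ, ⟨k1, k2, ?_⟩, k3⟩
    filter_upwards [k4] with u hu
    exact (key i j u (θ u)).2 hu
  · refine hmet (idx ⊥ L.𝓕.N i).1 (idx ⊥ L'.𝓕.N j).1 z hz z' hz'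
      ((ρ (rep ⊥ (idx ⊥ L.𝓕.N i).2))⁻¹ * rep ⊥ (idx ⊥ L'.𝓕.N j).2) θ hθ.1 hθ.2.1 ?_
    filter_upwards [hθ.2.2] with u hu
    exact (key i j u (θ u)).1 hu

/-- **change of the forms** -/
theorem eta_change (hf : ContMDiff 𝓘(ℂ, Cm (p + d)) 𝓘(ℂ, Cm p) ω f)
    {L L' : LG (p := p) (d := d) f} {N : ℕ} {D : IX L → Cm p × Cm d → ℂ}
    {D' : IX L' → Cm p × Cm d → ℂ} (hD : IsND L N D) (hD' : IsND L' N D') {y : Y}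
    (hy : y ∈ U L) (hy' : y ∈ U L') {τ : L.E ≃ₜ L'.E}
    (hq : ∀ e, L'.q (L'.χ y) (τ e) = L.q (L.χ y) e) (hτ : Hol (SK L hy) (SK L' hy') τ) {C : ℂ}
    (hc : ∀ i j, ∀ z ∈ ball (0 : Cm d) 3, ∀ z' ∈ ball (0 : Cm d) 3, ∀ θ,
      HTr (SK L hy) (SK L' hy') τ i j z z' θ →
        C * D i (L.χ y, z) = D' j (L'.χ y, z') * (H64.TK.jac θ z).det ^ N) {x : Z} (hx : f x = y)
    {ξ : Fin d → Cm (p + d)}
    (hξ : ∀ l, mfderiv 𝓘(ℂ, Cm (p + d)) 𝓘(ℂ, Cm p) f x (ξ l) = 0) :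
    eta L' N D' x ξ = C * eta L N D x ξ := by
  subst hx
  obtain ⟨i, ζ, h⟩ := chart hf hy
  obtain ⟨j₀, ζ', h'⟩ := chart hf hy'
  have h1 : L'.q (L'.χ (f x)) (sg L' j₀ (L'.χ (f x)) (ζ' x)) =
      L'.q (L'.χ (f x)) (τ (sg L i (L.χ (f x)) (ζ x))) := by
    rw [hq, h'.2.2.self_of_nhds, h.2.2.self_of_nhds]
  obtain ⟨γ, hγ⟩ := (L'.model.eq _ (L'.hT' hy'.2) _ _).1 h1
  rw [← sg_sF γ j₀ (L'.hT' hy'.2)] at hγ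
  have h'' := h'.shf hf hy' γ
  obtain ⟨θ, hθ, -⟩ := hτ i (sF γ j₀) (ζ x) h.2.1 (ζ' x) h'.2.1 hγ.symm
  have h3 : ∀ᶠ u in 𝓝 (ζ x), par L (f x) i u = par L' (f x) (sF γ j₀) (θ u) := by
    filter_upwards [hθ.2.2] with u hu
    have a1 : τ (sg L i (L.χ (f x)) u) = sg L' (sF γ j₀) (L'.χ (f x)) (θ u) := hu
    show L.q _ _ = L'.q _ _
    rw [← a1, hq]
  have h4 := Dt_cmp hf hy hy' h h'' hθ.1 hθ.2.1 h3 hξ
  rw [eta_eq hD hf hy h hξ, eta_eq hD' hf hy' h'' hξ, h4, mul_pow, ← mul_assoc, ← mul_assoc,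
    ← hc i (sF γ j₀) (ζ x) h.2.1 (ζ' x) h'.2.1 θ hθ]

end Vale.Agent.P281.H511.HK
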