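import Vale.Agent.P281.H511.HK.Geo

/-!
# P281, project T-HK (helper511), block G2: the parametrizations of the fibres
-/

open Set Filter Metric MeasureTheory Vale.Agent.P281 Vale.Agent.P281.H713 Vale.Agent.P272.K
open scoped Topology ContDiff Manifold ComplexConjugate ENNReal

set_option linter.unusedSectionVars false

noncomputable section

namespace Vale.Agent.P281.H511.HK

open Vale.Agent.P281.H64.TK Vale.Agent.P281.H64.TK.TS Vale.Agent.P281.H603.K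
open Vale.Agent.P281.H603.TE (sub fsub fW idx rep exists_rep ccs sub_sigma fsub_sigma')

attribute [local instance] ccs

variable {p d : ℕ} {Z Y : Type} [TopologicalSpace Z] [T2Space Z] [ChartedSpace (Cm (p + d)) Z]
  [IsManifold 𝓘(ℂ, Cm (p + d)) ω Z] [TopologicalSpace Y] [T2Space Y] [ChartedSpace (Cm p) Y]
  [IsManifold 𝓘(ℂ, Cm p) ω Y] {f : Z → Y} {L : LG (p := p) (d := d) f}

/-- the translated sheets give the same coordinates -/
theorem IsCo.shf {x : Z} (hf : ContMDiff 𝓘(ℂ, Cm (p + d)) 𝓘(ℂ, Cm p) ω f) (hx : f x ∈ U L)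
    {i : IX L} {ζ : Z → Cm d} (h : IsCo L x i ζ) (γ : L.Γ) : IsCo L x (sF γ i) ζ := by
  refine ⟨h.1, h.2.1, ?_⟩
  filter_upwards [h.2.2, eventually_mem L hf hx] with z a b
  rw [sg_sF γ i (L.hT' b.2), q_smul L b, a]

variable (L) in
/-- the parametrization of the fibre -/
abbrev par (y : Y) (i : IX L) (u : Cm d) : Z := L.q (L.χ y) (sg L i (L.χ y) u)

theorem f_par {y : Y} (hy : y ∈ U L) (i : IX L) (u : Cm d) : f (par L y i u) = y := by
  rw [par, L.model.fib _ (L.hT' hy.2), L.χ.left_inv hy.1]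

theorem par_co {x : Z} {i : IX L} {ζ : Z → Cm d} (h : IsCo L x i ζ) : par L (f x) i (ζ x) = x :=
  h.2.2.self_of_nhds

theorem mdiff_par {y : Y} (hy : y ∈ U L) (i : IX L) {u : Cm d} (hu : u ∈ ball (0 : Cm d) 3) :
    MDifferentiableAt 𝓘(ℂ, Cm d) 𝓘(ℂ, Cm (p + d)) (par L y i) u := by
  have h1 := mdiff_q hy i hu
  have h2 : MDifferentiableAt 𝓘(ℂ, Cm d) 𝓘(ℂ, Cm p × Cm d) (fun u : Cm d => (L.χ y, u)) u :=
    DifferentiableAt.mdifferentiableAt (by fun_prop)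
  exact MDifferentiableAt.comp u (g := fun r : Cm p × Cm d => L.q r.1 (sg L i r.1 r.2))
    (f := fun u : Cm d => (L.χ y, u)) h1 h2

theorem cont_par {y : Y} (hy : y ∈ U L) (i : IX L) {u : Cm d} (hu : u ∈ ball (0 : Cm d) 3) :
    ContinuousAt (par L y i) u := (mdiff_par hy i hu).continuousAt

/-- the coordinate along the parametrization -/
theorem co_par {x : Z} (hx : f x ∈ U L) {i : IX L} {ζ : Z → Cm d} (h : IsCo L x i ζ) :
    (fun u => ζ (par L (f x) i u)) =ᶠ[𝓝 (ζ x)] fun u => u := by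
  have hc : Tendsto (par L (f x) i) (𝓝 (ζ x)) (𝓝 x) := by
    have := (cont_par hx i h.2.1).tendsto
    rwa [par_co h] at this
  filter_upwards [hc.eventually h.2.2, hc.eventually (h.1.continuousAt.eventually
    (isOpen_ball.mem_nhds h.2.1)), isOpen_ball.mem_nhds h.2.1] with u a1 a2 a3
  rw [f_par hx] at a1
  exact eq_of_q (j := i) (L.hT' hx.2) a2 a3 a1

/-- the tangent vectors of the parametrization -/
abbrev tg (y : Y) (i : IX L) (u : Cm d) (e : Cm d) : Cm (p + d) :=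
  mfderiv 𝓘(ℂ, Cm d) 𝓘(ℂ, Cm (p + d)) (par L y i) u e

/-- they are vertical -/
theorem vert_tg {x : Z} (hf : ContMDiff 𝓘(ℂ, Cm (p + d)) 𝓘(ℂ, Cm p) ω f) (hx : f x ∈ U L)
    {i : IX L} {ζ : Z → Cm d} (h : IsCo L x i ζ) (e : Cm d) :
    mfderiv 𝓘(ℂ, Cm (p + d)) 𝓘(ℂ, Cm p) f x (tg (L := L) (f x) i (ζ x) e) = 0 := by
  have h3 := mfderiv_comp_apply (ζ x) (g := f) (f := par L (f x) i)
    ((hf _).mdifferentiableAt (by simp)) (mdiff_par hx i h.2.1) e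
  have h4 : (f ∘ par L (f x) i) = fun _ => f x := by
    funext u
    exact f_par hx i u
  rw [h4, mfderiv_const, par_co h] at h3
  exact h3.symm

/-- the differential of the coordinate -/
theorem dco_tg {x : Z} (hx : f x ∈ U L) {i : IX L} {ζ : Z → Cm d} (h : IsCo L x i ζ) (e : Cm d) :
    (mfderiv 𝓘(ℂ, Cm (p + d)) 𝓘(ℂ, Cm d) ζ x (tg (L := L) (f x) i (ζ x) e) : Cm d) = e := by
  have h3 := mfderiv_comp_apply (ζ x) (g := ζ) (f := par L (f x) i)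
    (by rw [par_co h]; exact h.1.mdifferentiableAt (by simp)) (mdiff_par hx i h.2.1) e
  have h4 : (ζ ∘ par L (f x) i) =ᶠ[𝓝 (ζ x)] fun u => u := co_par hx h
  rw [h4.mfderiv_eq, mfderiv_eq_fderiv, par_co h, fderiv_fun_id] at h3
  exact h3.symm

/-- vertical vectors are tangent to the parametrization -/
theorem tg_eq {x : Z} (hf : ContMDiff 𝓘(ℂ, Cm (p + d)) 𝓘(ℂ, Cm p) ω f) (hx : f x ∈ U L)
    {i : IX L} {ζ : Z → Cm d} (h : IsCo L x i ζ) {ξ : Cm (p + d)}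
    (hξ : mfderiv 𝓘(ℂ, Cm (p + d)) 𝓘(ℂ, Cm p) f x ξ = 0) :
    tg (L := L) (f x) i (ζ x) (mfderiv 𝓘(ℂ, Cm (p + d)) 𝓘(ℂ, Cm d) ζ x ξ) = ξ := by
  set e : Cm d := mfderiv 𝓘(ℂ, Cm (p + d)) 𝓘(ℂ, Cm d) ζ x ξ with he
  have h1 := vert_tg hf hx h e
  have h2 := dco_tg hx h e
  set F : Cm (p + d) →L[ℂ] Cm p := mfderiv 𝓘(ℂ, Cm (p + d)) 𝓘(ℂ, Cm p) f x with hF
  set D : Cm (p + d) →L[ℂ] Cm d := mfderiv 𝓘(ℂ, Cm (p + d)) 𝓘(ℂ, Cm d) ζ x with hD
  have h3 : F (tg (L := L) (f x) i (ζ x) e - ξ) = 0 := by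
    rw [map_sub]
    have a1 : F (tg (L := L) (f x) i (ζ x) e) = 0 := h1
    have a2 : F ξ = 0 := hξ
    rw [a1, a2, sub_zero]
  have h4 : D (tg (L := L) (f x) i (ζ x) e - ξ) = 0 := by
    rw [map_sub]
    have a1 : D (tg (L := L) (f x) i (ζ x) e) = e := h2
    have a2 : D ξ = e := he.symm
    rw [a1, a2, sub_self]
  exact sub_eq_zero.1 (co_inj hf hx h h3 h4)

/-- a vertical frame -/
theorem Dt_tg {x : Z} (hx : f x ∈ U L) {i : IX L} {ζ : Z → Cm d} (h : IsCo L x i ζ) :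
    Dt ζ x (fun l => tg (L := L) (f x) i (ζ x) (Pi.single l 1)) = 1 := by
  rw [Dt_eq (h.1.mdifferentiableAt (by simp))]
  have h1 : (Matrix.of fun k l => (mfderiv 𝓘(ℂ, Cm (p + d)) 𝓘(ℂ, Cm d) ζ x
      (tg (L := L) (f x) i (ζ x) (Pi.single l 1)) : Cm d) k) = (1 : Matrix (Fin d) (Fin d) ℂ) := by
    ext k l
    rw [Matrix.of_apply]
    have h2 := congrFun (dco_tg hx h (Pi.single l 1)) k
    rw [Matrix.one_apply]
    refine h2.trans ?_
    rw [Pi.single_apply]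
  rw [h1, Matrix.det_one]

/-- **the coordinates of two models** -/
theorem Dt_cmp {L' : LG (p := p) (d := d) f} {x : Z}
    (hf : ContMDiff 𝓘(ℂ, Cm (p + d)) 𝓘(ℂ, Cm p) ω f) (hx : f x ∈ U L) (hx' : f x ∈ U L')
    {i : IX L} {ζ : Z → Cm d} (h : IsCo L x i ζ) {j : IX L'} {ζ' : Z → Cm d} (h' : IsCo L' x j ζ')
    {θ : Cm d → Cm d} (hθ : AnalyticAt ℂ θ (ζ x)) (hθx : θ (ζ x) = ζ' x)
    (hev : ∀ᶠ u in 𝓝 (ζ x), par L (f x) i u = par L' (f x) j (θ u)) {ξ : Fin d → Cm (p + d)}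
    (hξ : ∀ l, mfderiv 𝓘(ℂ, Cm (p + d)) 𝓘(ℂ, Cm p) f x (ξ l) = 0) :
    Dt ζ' x ξ = (H64.TK.jac θ (ζ x)).det * Dt ζ x ξ := by
  have hc : Tendsto (par L (f x) i) (𝓝 (ζ x)) (𝓝 x) := by
    have := (cont_par hx i h.2.1).tendsto
    rwa [par_co h] at this
  have e1 : ∀ᶠ u in 𝓝 (ζ x), θ u ∈ ball (0 : Cm d) 3 := hθ.continuousAt.eventually (by
    rw [hθx]
    exact isOpen_ball.mem_nhds h'.2.1)
  have h1 : (fun u => ζ' (par L (f x) i u)) =ᶠ[𝓝 (ζ x)] θ := by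
    filter_upwards [hev, e1, hc.eventually h'.2.2, hc.eventually (h'.1.continuousAt.eventually
      (isOpen_ball.mem_nhds h'.2.1))] with u a1 a2 a3 a4
    rw [f_par hx] at a3
    refine eq_of_q (j := j) (L'.hT' hx'.2) a4 a2 ?_
    exact a3.trans a1
  have h2 : ∀ e : Cm d, (mfderiv 𝓘(ℂ, Cm (p + d)) 𝓘(ℂ, Cm d) ζ' x
      (tg (L := L) (f x) i (ζ x) e) : Cm d) = fderiv ℂ θ (ζ x) e := by
    intro e
    have h3 := mfderiv_comp_apply (ζ x) (g := ζ') (f := par L (f x) i)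
      (by rw [par_co h]; exact h'.1.mdifferentiableAt (by simp)) (mdiff_par hx i h.2.1) e
    have h4 : (ζ' ∘ par L (f x) i) =ᶠ[𝓝 (ζ x)] θ := h1
    rw [h4.mfderiv_eq, mfderiv_eq_fderiv, par_co h] at h3
    exact h3.symm
  rw [Dt_eq (h.1.mdifferentiableAt (by simp)), Dt_eq (h'.1.mdifferentiableAt (by simp)),
    ← Matrix.det_mul]
  congr 1
  ext k l
  simp only [Matrix.of_apply]
  have h5 := h2 (mfderiv 𝓘(ℂ, Cm (p + d)) 𝓘(ℂ, Cm d) ζ x (ξ l))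
  rw [tg_eq hf hx h (hξ l)] at h5
  rw [h5]
  exact H485.U.fderiv_jac _ _ _ _

end Vale.Agent.P281.H511.HK
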